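import Vale.Agent.P157.Conc.Transition

/-!
The exact threshold of the annealed value for the Ising perceptron with potential `ε cos`.
-/

open MeasureTheory ProbabilityTheory Filter Topology Real Set P157.Conc

/-- For small `ε` and `f = ε cos`, the limiting pressure exists at every density, equals the
annealed value exactly for `α ≤ (E e^f / E (e^f)'')²` and lies strictly below it beyond. -/
theorem Vale.Agent.Results.P157.IsingAnnealedTransition.result :
    ∃ ε₀ : ℝ, 0 < ε₀ ∧ ∀ ε : ℝ, |ε| < ε₀ → ∀ α : ℝ, 0 < α →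
      ∃ L : ℝ, Tendsto (fun N : ℕ =>
        ∫ g : Fin ⌊α * N⌋₊ → Fin N → ℝ,
          (1 / (N : ℝ)) * Real.log ((1 / (2 : ℝ) ^ N) * ∑ σ : Fin N → Bool,
            Real.exp (∑ a, ε * Real.cos ((∑ i, g a i * (if σ i then (1 : ℝ) else -1)) / Real.sqrt N)))
          ∂Measure.pi (fun _ => Measure.pi fun _ => gaussianReal 0 1)) atTop (𝓝 L) ∧
        (α * ((∫ s, (ε ^ 2 * sin s ^ 2 - ε * cos s) * exp (ε * cos s) ∂gaussianReal 0 1)
            / ∫ s, exp (ε * cos s) ∂gaussianReal 0 1) ^ 2 ≤ 1 →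
          L = α * log (∫ s, exp (ε * cos s) ∂gaussianReal 0 1)) ∧
        (1 < α * ((∫ s, (ε ^ 2 * sin s ^ 2 - ε * cos s) * exp (ε * cos s) ∂gaussianReal 0 1)
            / ∫ s, exp (ε * cos s) ∂gaussianReal 0 1) ^ 2 →
          L < α * log (∫ s, exp (ε * cos s) ∂gaussianReal 0 1)) :=
  cos_transition
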