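import Vale.Agent.P157.Conc.Amplitude

/-!
The limiting pressure of the Ising perceptron at every pattern density for potentials of small
amplitude, with the replica symmetric upper bound.
-/

open MeasureTheory ProbabilityTheory Filter Topology Real Set P157.Conc

/-- (1) If `f` is three times differentiable and meets an explicit small-amplitude criterion, the
mean pressure converges at every density and the limit lies below the Gardner replica symmetric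
functional at every overlap. (2) The criterion holds for `ε h`, `ε` small, when the pair
correlation of `h''` is positive, in particular for even `h` with `E h''(G) ≠ 0`. -/
theorem Vale.Agent.Results.P157.IsingConcaveLimit.result :
    (∀ (f f1 f2 f3 : ℝ → ℝ) (U V W δ κ : ℝ),
      (∀ s, HasDerivAt f (f1 s) s) → (∀ s, HasDerivAt f1 (f2 s) s) →
      (∀ s, HasDerivAt f2 (f3 s) s) → Continuous f3 →
      (∀ s, |f1 s| ≤ U) → (∀ s, |f2 s + f1 s ^ 2| ≤ V) → (∀ s, |f3 s| ≤ W) →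
      (∀ s t, |f s - f t| ≤ δ) →
      (∀ r ∈ Icc (-1 : ℝ) 1, κ ≤ ∫ p : ℝ × ℝ, (f2 p.1 + f1 p.1 ^ 2) *
          (f2 (r * p.1 + √(1 - r ^ 2) * p.2) + f1 (r * p.1 + √(1 - r ^ 2) * p.2) ^ 2)
          ∂(gaussianReal 0 1).prod (gaussianReal 0 1)) →
      4 * exp (2 * δ) * V * U ^ 2 + (exp (2 * δ) - 1) * V ^ 2 ≤ κ →
      ∀ α : ℝ, 0 < α → ∃ L : ℝ, Tendsto (pressure f α) atTop (𝓝 L) ∧
        ∀ q ∈ Icc (0 : ℝ) 1, L ≤ rsBound f f1 α q)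
    ∧ (∀ (h h1 h2 h3 : ℝ → ℝ) (M : ℝ),
      (∀ s, HasDerivAt h (h1 s) s) → (∀ s, HasDerivAt h1 (h2 s) s) →
      (∀ s, HasDerivAt h2 (h3 s) s) → Continuous h3 →
      (∀ s, |h s| ≤ M) → (∀ s, |h1 s| ≤ M) → (∀ s, |h2 s| ≤ M) → (∀ s, |h3 s| ≤ M) →
      ((∀ r ∈ Icc (-1 : ℝ) 1, 0 < ∫ p : ℝ × ℝ, h2 p.1 * h2 (r * p.1 + √(1 - r ^ 2) * p.2)
          ∂(gaussianReal 0 1).prod (gaussianReal 0 1)) ∨
        ((∀ s, h (-s) = h s) ∧ ∫ s, h2 s ∂gaussianReal 0 1 ≠ 0)) →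
      ∃ ε₀ : ℝ, 0 < ε₀ ∧ ∀ ε : ℝ, |ε| < ε₀ → ∀ α : ℝ, 0 < α →
        ∃ L : ℝ, Tendsto (pressure (fun s => ε * h s) α) atTop (𝓝 L) ∧
          ∀ q ∈ Icc (0 : ℝ) 1, L ≤ rsBound (fun s => ε * h s) (fun s => ε * h1 s) α q) := by
  refine ⟨fun f f1 f2 f3 U V W δ κ d1 d2 d3 c3 b1 b2 b3 ho hl hc α hα =>
    pressure_limit ⟨d1, d2, d3, c3, b1, b2, b3⟩ ⟨ho, hl, hc⟩ hα, ?_⟩
  intro h h1 h2 h3 M d1 d2 d3 c3 b0 b1 b2 b3 hpos
  obtain ⟨ε₀, he, hε⟩ := small_amplitude d1 d2 d3 c3 b0 b1 b2 b3 hpos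
  refine ⟨ε₀, he, fun ε hlt α hα => ?_⟩
  obtain ⟨U, V, W, δ, κ, hp, hs⟩ := hε ε hlt
  exact pressure_limit hp hs hα
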