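import Vale.Agent.P157.Main
import Vale.Agent.P157.Sphere.Main

/-!
Existence of the limiting pressure of the Ising and of the spherical perceptron at every pattern
density, for a class of bounded potentials.
-/

open MeasureTheory ProbabilityTheory Filter Topology

/-- For every density `α > 0` and every potential `f s = log (A - ∫ cos (ξ s) dν)`, with `ν` a
finite measure of mass less than `A`, the mean pressures of the Ising and of the spherical
perceptron converge. -/
theorem Vale.Agent.Results.P157.LimitExists.result (α A : ℝ) (hα : 0 < α) (ν : Measure ℝ)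
    [IsFiniteMeasure ν] (hA : ν.real Set.univ < A) :
    (∃ L : ℝ, Tendsto (fun N : ℕ =>
      ∫ g : Fin ⌊α * N⌋₊ → Fin N → ℝ,
        (1 / (N : ℝ)) * Real.log ((1 / (2 : ℝ) ^ N) * ∑ σ : Fin N → Bool,
          Real.exp (∑ a, Real.log (A - ∫ ξ, Real.cos
            (ξ * ((∑ i, g a i * (if σ i then (1 : ℝ) else -1)) / Real.sqrt N)) ∂ν)))
        ∂Measure.pi (fun _ => Measure.pi fun _ => gaussianReal 0 1)) atTop (𝓝 L)) ∧
    ∃ L : ℝ, Tendsto (fun N : ℕ =>
      ∫ g : Fin ⌊α * N⌋₊ → Fin N → ℝ,
        (1 / (N : ℝ)) * Real.log (⨍ x : Metric.sphere (0 : EuclideanSpace ℝ (Fin N)) 1,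
          Real.exp (∑ a, Real.log (A - ∫ ξ, Real.cos (ξ * ((∑ i, g a i *
            (Real.sqrt N * (x : EuclideanSpace ℝ (Fin N)) i)) / Real.sqrt N)) ∂ν))
          ∂(volume : Measure (EuclideanSpace ℝ (Fin N))).toSphere)
        ∂Measure.pi (fun _ => Measure.pi fun _ => gaussianReal 0 1)) atTop (𝓝 L) :=
  ⟨P157.main α A hα ν hA, P157.Sphere.main α A hα ν hA⟩
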