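import Vale.Agent.P157.RS.Main
import Vale.Agent.P157.RS.Witness

/-!
The replica symmetric formula for the pressure of the spherical perceptron at every pattern
density, for smooth potentials of small amplitude with a mean slope.
-/

open MeasureTheory ProbabilityTheory Filter Topology Real Set

/-- (1) If `f` meets explicit smallness criteria, then at every density the replica symmetric fixed
point exists and at each fixed point the mean pressure converges to the replica symmetric value.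
(2) The criteria hold for `ε sin (s / 20 + π / 4)`, `0 < ε < ε₀`, uniformly in the density. -/
theorem Vale.Agent.Results.P157.SphereRS.result :
    (∀ (f f1 f2 f3 : ℝ → ℝ) (U V W B κ : ℝ),
      (∀ s, HasDerivAt f (f1 s) s) → (∀ s, HasDerivAt f1 (f2 s) s) →
      (∀ s, HasDerivAt f2 (f3 s) s) → Continuous f3 →
      (∀ s, |f1 s| ≤ U) → (∀ s, |f2 s + f1 s ^ 2| ≤ V) → (∀ s, |f3 s| ≤ W) → (∀ s, |f s| ≤ B) →
      (∀ r ∈ Icc (-1 : ℝ) 1, κ ≤ ∫ p : ℝ × ℝ, (f2 p.1 + f1 p.1 ^ 2) *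
          (f2 (r * p.1 + √(1 - r ^ 2) * p.2) + f1 (r * p.1 + √(1 - r ^ 2) * p.2) ^ 2)
          ∂(gaussianReal 0 1).prod (gaussianReal 0 1)) →
      32 * exp (8 * B) * (V * U ^ 2 + U ^ 4) + (exp (8 * B) - 1) * V ^ 2 ≤ κ →
      8 * exp (2 * B) * (V + U ^ 2) + U * (exp (2 * B) - 1) ≤ |∫ s, f1 s ∂gaussianReal 0 1| →
      ∫ s, f1 s ∂gaussianReal 0 1 ≠ 0 →
      ∀ α : ℝ, 0 < α →
        (∃ q ∈ Ioo (0 : ℝ) 1, q / (1 - q) ^ 2 = α * ∫ z,
          ((∫ x, f1 (√q * z + √(1 - q) * x) * exp (f (√q * z + √(1 - q) * x)) ∂gaussianReal 0 1)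
            / ∫ x, exp (f (√q * z + √(1 - q) * x)) ∂gaussianReal 0 1) ^ 2 ∂gaussianReal 0 1) ∧
        ∀ q ∈ Ioo (0 : ℝ) 1, q / (1 - q) ^ 2 = α * ∫ z,
          ((∫ x, f1 (√q * z + √(1 - q) * x) * exp (f (√q * z + √(1 - q) * x)) ∂gaussianReal 0 1)
            / ∫ x, exp (f (√q * z + √(1 - q) * x)) ∂gaussianReal 0 1) ^ 2 ∂gaussianReal 0 1 →
          Tendsto (fun N : ℕ =>
            ∫ g : Fin ⌊α * N⌋₊ → Fin N → ℝ,
              (1 / (N : ℝ)) * Real.log (⨍ x : Metric.sphere (0 : EuclideanSpace ℝ (Fin N)) 1,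
                Real.exp (∑ a, f ((∑ i, g a i *
                  (Real.sqrt N * (x : EuclideanSpace ℝ (Fin N)) i)) / Real.sqrt N))
                ∂(volume : Measure (EuclideanSpace ℝ (Fin N))).toSphere)
              ∂Measure.pi (fun _ => Measure.pi fun _ => gaussianReal 0 1)) atTop
            (𝓝 (α * (∫ z, log (∫ x, exp (f (√q * z + √(1 - q) * x)) ∂gaussianReal 0 1)
                  ∂gaussianReal 0 1) + (q / (1 - q) + log (1 - q)) / 2)))
    ∧ ∃ ε₀ : ℝ, 0 < ε₀ ∧ ∀ ε : ℝ, 0 < ε → ε < ε₀ → ∀ α : ℝ, 0 < α →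
        ∃ q ∈ Ioo (0 : ℝ) 1,
          (q / (1 - q) ^ 2 = α * ∫ z,
            ((∫ x, ε / 20 * cos ((√q * z + √(1 - q) * x) / 20 + π / 4)
                  * exp (ε * sin ((√q * z + √(1 - q) * x) / 20 + π / 4)) ∂gaussianReal 0 1)
              / ∫ x, exp (ε * sin ((√q * z + √(1 - q) * x) / 20 + π / 4)) ∂gaussianReal 0 1) ^ 2
            ∂gaussianReal 0 1) ∧
          Tendsto (fun N : ℕ =>
            ∫ g : Fin ⌊α * N⌋₊ → Fin N → ℝ,
              (1 / (N : ℝ)) * Real.log (⨍ x : Metric.sphere (0 : EuclideanSpace ℝ (Fin N)) 1,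
                Real.exp (∑ a, ε * sin ((∑ i, g a i *
                  (Real.sqrt N * (x : EuclideanSpace ℝ (Fin N)) i)) / Real.sqrt N / 20 + π / 4))
                ∂(volume : Measure (EuclideanSpace ℝ (Fin N))).toSphere)
              ∂Measure.pi (fun _ => Measure.pi fun _ => gaussianReal 0 1)) atTop
            (𝓝 (α * (∫ z, log (∫ x, exp (ε * sin ((√q * z + √(1 - q) * x) / 20 + π / 4))
                    ∂gaussianReal 0 1) ∂gaussianReal 0 1) + (q / (1 - q) + log (1 - q)) / 2)) := by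
  refine ⟨fun f f1 f2 f3 U V W B κ d1 d2 d3 c3 b1 b2 b3 bd low crit slope slope0 α hα =>
    P157.RS.main ⟨⟨d1, d2, d3, c3, b1, b2, b3⟩, bd, low, crit, slope, slope0⟩ hα, ?_⟩
  obtain ⟨ε₀, h0, h⟩ := P157.RS.witness_good
  refine ⟨ε₀, h0, fun ε hε hlt α hα => ?_⟩
  obtain ⟨f1, f2, f3, U, V, W, B, κ, hg⟩ := h ε hε hlt
  have e : f1 = fun s => ε / 20 * cos (s / 20 + π / 4) := funext fun s => by
    have hd := ((((hasDerivAt_id s).div_const 20).add_const (π / 4)).sin).const_mul ε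
    refine ((hg.pot.d1 s).unique hd).trans ?_
    simp only [id_eq]
    ring
  subst e
  obtain ⟨⟨q, hq, hfix⟩, hlim⟩ := P157.RS.main hg hα
  exact ⟨q, hq, hfix, hlim q hq hfix⟩
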